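import Vale.Agent.Lib.P199.TypeTwo

/-!
# A one-element criterion for local finiteness
-/

namespace Vale.Agent.Lib.P199

open Polynomial Module

variable {k D : Type*} [Field k] [DivisionRing D] [Algebra k D]

/-- The two-generator theorem relative to a division subring containing `k`. -/
theorem fg_adjoin_of_two_generated_subfield (hsep : ∀ a : D, (minpoly k a).Separable)
    (C : Subfield D) (hk : ∀ r : k, algebraMap k D r ∈ C)
    (h2 : ∀ x ∈ C, ∀ y ∈ C, FiniteDimensional k (Algebra.adjoin k ({x, y} : Set D)))
    (T : Finset D) (hT : (T : Set D) ⊆ C) :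
    (Subalgebra.toSubmodule (Algebra.adjoin k (T : Set D))).FG := by
  classical
  let alg : Algebra k C := RingHom.toAlgebra' ((algebraMap k D).codRestrict C hk)
    (fun r x => Subtype.ext (Algebra.commutes r (x : D)))
  let φ : C →ₐ[k] D := { C.subtype with commutes' := fun r => rfl }
  have hφ : Function.Injective φ := Subtype.val_injective
  have hsepC : ∀ a : C, (minpoly k a).Separable := fun a => by
    rw [← minpoly.algHom_eq φ hφ a]
    exact hsep _
  have h2C : ∀ x y : C, FiniteDimensional k (Algebra.adjoin k ({x, y} : Set C)) := by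
    intro x y
    have h := h2 x x.2 y y.2
    have h3 : (Subalgebra.toSubmodule (Algebra.adjoin k ({(x : D), (y : D)} : Set D))).FG :=
      Module.Finite.iff_fg.1 h
    have h4 : (Subalgebra.toSubmodule (Algebra.adjoin k ({x, y} : Set C))).map φ.toLinearMap =
        Subalgebra.toSubmodule (Algebra.adjoin k ({(x : D), (y : D)} : Set D)) := by
      rw [← Subalgebra.map_toSubmodule, AlgHom.map_adjoin, Set.image_pair]
      rfl
    rw [← h4] at h3
    exact Module.Finite.of_fg (Submodule.fg_of_fg_map_injective φ.toLinearMap hφ h3)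
  have h5 := locFin_top_of_two_generated hsepC h2C (T.subtype (· ∈ C)) (fun _ _ => trivial)
  have h6 := h5.map φ.toLinearMap
  rw [← Subalgebra.map_toSubmodule, AlgHom.map_adjoin] at h6
  have h7 : φ '' ((T.subtype (· ∈ C) : Finset C) : Set C) = (T : Set D) := by
    ext d
    constructor
    · rintro ⟨c, hc, rfl⟩
      exact Finset.mem_subtype.1 hc
    · intro hd
      exact ⟨⟨d, hT hd⟩, Finset.mem_subtype.2 hd, rfl⟩
  rwa [h7] at h6

/-- One-element criterion: if `κ` is not central and `k[κ, y]` is finite-dimensional for every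
`y`, then `D` is locally finite (all elements being separable over `k`). -/
theorem locFin_top_of_one_element (hsep : ∀ a : D, (minpoly k a).Separable) {κ e : D}
    (hne : κ * e ≠ e * κ)
    (h1 : ∀ y : D, FiniteDimensional k (Algebra.adjoin k ({κ, y} : Set D))) :
    LocFin (⊤ : Subalgebra k D) := by
  classical
  have hint : ∀ a : D, IsIntegral k a := by
    intro a
    by_contra h
    have h1 := hsep a
    rw [minpoly.eq_zero h] at h1
    exact Polynomial.not_separable_zero h1
  set p := minpoly k κ with hp
  have hp0 : aeval κ p = 0 := minpoly.aeval k κ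
  obtain ⟨b, hb⟩ := exists_aeval_mul_derivative_eq_one (hsep κ) hp0
  obtain ⟨a, w, ha, hw, he⟩ := exists_decomposition (hsep κ) hp0 e
  have hwκ : w * κ - κ * w ≠ 0 := by
    intro h
    apply hne
    rw [he, mul_add, add_mul, ha, sub_eq_zero.1 h]
  set E0 := Algebra.adjoin k ({κ, w} : Set D) with hE0
  have hE0fin : FiniteDimensional k E0 := h1 w
  have hκE0 : κ ∈ E0 := Algebra.subset_adjoin (by simp)
  have hwE0 : w ∈ E0 := Algebra.subset_adjoin (by simp)
  refine locFin_top_of_centralizer E0 ?_
  intro T hT
  refine fg_adjoin_of_two_generated_subfield hsep (centSubfield (E0 : Set D)) ?_ ?_ T ?_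
  · intro r
    rw [mem_centSubfield]
    intro g _
    exact (Algebra.commutes r g).symm
  · intro t1 ht1 t2 ht2
    rw [mem_centSubfield] at ht1 ht2
    have h1κ : κ * t1 = t1 * κ := ht1 κ hκE0
    have h2κ : κ * t2 = t2 * κ := ht2 κ hκE0
    have h1w : w * t1 = t1 * w := ht1 w hwE0
    have h2w : w * t2 = t2 * w := ht2 w hwE0
    set t := t1 + κ * t2 with ht
    have htκ : κ * t = t * κ := by
      rw [ht, mul_add, add_mul, h1κ, mul_assoc κ t2 κ, ← h2κ]
    set B := Algebra.adjoin k ({κ, t + w} : Set D) with hB
    have hBfin : FiniteDimensional k B := h1 (t + w)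
    have hκB : κ ∈ B := Algebra.subset_adjoin (by simp)
    have htwB : t + w ∈ B := Algebra.subset_adjoin (by simp)
    have h3 : gOp p κ (t + w) = t * aeval κ (derivative p) := by
      rw [map_add, hw, add_zero, gOp_of_comm p htκ]
    have h4 : t * aeval κ (derivative p) ∈ B := h3 ▸ gOp_mem p B hκB htwB
    have h5 : aeval κ b ∈ B :=
      (Algebra.adjoin_le (by simpa using hκB) : Algebra.adjoin k {κ} ≤ B)
        (aeval_mem_adjoin_singleton k κ)
    have htB : t ∈ B := by
      have := B.mul_mem h4 h5
      rwa [mul_assoc, hb, mul_one] at this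
    have hwB : w ∈ B := by
      have := B.sub_mem htwB htB
      rwa [add_sub_cancel_left] at this
    have hcB : w * κ - κ * w ∈ B := B.sub_mem (B.mul_mem hwB hκB) (B.mul_mem hκB hwB)
    have hct2 : (w * κ - κ * w) * t2 = w * t - t * w := by
      rw [ht, mul_add, add_mul, h1w, sub_mul, mul_assoc κ t2 w, ← h2w]
      simp only [mul_assoc]
      abel
    have hct2B : (w * κ - κ * w) * t2 ∈ B := by
      rw [hct2]
      exact B.sub_mem (B.mul_mem hwB htB) (B.mul_mem htB hwB)
    have hinvB : (w * κ - κ * w)⁻¹ ∈ B := (hint _).inv_mem hcB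
    have ht2B : t2 ∈ B := by
      have := B.mul_mem hinvB hct2B
      rwa [← mul_assoc, inv_mul_cancel₀ hwκ, one_mul] at this
    have ht1B : t1 ∈ B := by
      have := B.sub_mem htB (B.mul_mem hκB ht2B)
      rwa [ht, add_sub_cancel_right] at this
    have hle : Algebra.adjoin k ({t1, t2} : Set D) ≤ B := by
      apply Algebra.adjoin_le
      intro y hy
      rcases hy with rfl | rfl
      · exact ht1B
      · exact ht2B
    have hBfg : (Subalgebra.toSubmodule B).FG := Module.Finite.iff_fg.1 hBfin
    have hfg : (Subalgebra.toSubmodule (Algebra.adjoin k ({t1, t2} : Set D))).FG :=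
      Submodule.FG.of_le hBfg hle
    exact Module.Finite.of_fg hfg
  · intro x hx
    have h1 := hT hx
    rw [SetLike.mem_coe, Subalgebra.mem_centralizer_iff] at h1
    exact mem_centSubfield.2 h1

end Vale.Agent.Lib.P199
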